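import Vale.Agent.P284.Main

/-! P284: special manifolds and hyperbolic Kaehler manifolds. -/

open scoped Manifold ContDiff

namespace Vale.Agent.Results.P284.A_hyp

open Vale.Agent.P272 Vale.Agent.P284

theorem result (n : ℕ) (X : Type) [TopologicalSpace X] [T2Space X] [CompactSpace X]
    [ConnectedSpace X] [ChartedSpace (E n) X] [IsManifold 𝓘(ℂ, E n) ω X] (hX : Special n X) :
    (HypK n X → n = 0 ∧ ∀ x : X, PiVA X x) ∧
    ∀ (d : ℕ) (Y : Type) [TopologicalSpace Y] [T2Space Y] [CompactSpace Y] [ConnectedSpace Y]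
      [ChartedSpace (E d) Y] [IsManifold 𝓘(ℂ, E d) ω Y], HypK d Y →
      ∀ f : X → Y, Hol n d f → ∀ x : X, (∀ z, f z = f x → Subm n d f z) →
        d = 0 ∧ (PiVA (f ⁻¹' {f x}) ⟨x, rfl⟩ → PiVA X x) := by
  refine ⟨fun ⟨⟨g, hg⟩, hy⟩ => ?_, fun d Y _ _ _ _ _ _ ⟨⟨g, hg⟩, hy⟩ f hf x hs => ?_⟩
  · obtain ⟨x⟩ : Nonempty X := inferInstance
    obtain rfl : n = 0 := dim_zero (x := x) hX g hg hy mdifferentiable_id fun z _ => by
      rw [mfderiv_id]
      exact Function.surjective_id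
    have := point (Y := X)
    exact ⟨rfl, virt_point⟩
  · obtain rfl : d = 0 := dim_zero hX g hg hy hf hs
    have := point (Y := Y)
    exact ⟨rfl, virt_univ fun _ => Subsingleton.elim _ _⟩

end Vale.Agent.Results.P284.A_hyp
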