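import Vale.Agent.P284.Surj

/-! P284: special manifolds dominate no hyperbolic Kaehler manifold of positive dimension. -/

open scoped Manifold ContDiff

namespace Vale.Agent.Results.P284.B_dom

open Vale.Agent.P272 Vale.Agent.P284

theorem result (n : ℕ) (X : Type) [TopologicalSpace X] [T2Space X] [CompactSpace X]
    [ConnectedSpace X] [ChartedSpace (E n) X] [IsManifold 𝓘(ℂ, E n) ω X] (hX : Special n X) :
    (HypK n X → n = 0 ∧ ∀ x : X, PiVA X x) ∧
    ∀ (d : ℕ) (Y : Type) [TopologicalSpace Y] [T2Space Y] [CompactSpace Y] [ConnectedSpace Y]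
      [ChartedSpace (E d) Y] [IsManifold 𝓘(ℂ, E d) ω Y], HypK d Y →
      ∀ f : X → Y, Hol n d f → (interior (Set.range f)).Nonempty →
        d = 0 ∧ ∀ x : X, PiVA (f ⁻¹' {f x}) ⟨x, rfl⟩ → PiVA X x := by
  refine ⟨fun hy => ?_, fun d Y _ _ _ _ _ _ hy f hf ⟨y, hs⟩ => ?_⟩
  · obtain ⟨x⟩ : Nonempty X := inferInstance
    obtain rfl : n = 0 := dim_zero' (y := x) hX hy mdifferentiable_id (by
      rw [Set.range_id]
      exact Filter.univ_mem)
    have := point (Y := X)
    exact ⟨rfl, virt_point⟩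
  · obtain rfl : d = 0 := dim_zero' hX hy hf (mem_interior_iff_mem_nhds.1 hs)
    have := point (Y := Y)
    exact ⟨rfl, fun x => virt_univ fun _ => Subsingleton.elim _ _⟩

end Vale.Agent.Results.P284.B_dom
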